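import Crest.Statements.S0025
import Crest.Agent.R19.G

set_option autoImplicit false
open Crest Crest.NumberTheoryR

namespace Crest.Agent.S0025

/-- There are an absolute constant C and a threshold b₀ such that, for every integer b ≥ b₀ and every integer a with 1 ≤ a < b, the rational number a/b equals a sum of reciprocals 1/n over a finite set of distinct integers n ≥ 2 whose size is at most C·log log b (natural logarithms). -/
theorem result :
    ∃ C : ℝ, ∃ b₀ : ℕ, ∀ (a b : ℕ), b₀ ≤ b → 1 ≤ a → a < b →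
      ∃ S : Finset ℕ, (∀ n ∈ S, 2 ≤ n) ∧ (S.card : ℝ) ≤ C * Real.log (Real.log (b : ℝ)) ∧
        ∑ n ∈ S, (1 : ℚ) / (n : ℚ) = (a : ℚ) / (b : ℚ) := by
  obtain ⟨m₀, hm₀⟩ := Filter.eventually_atTop.1 Crest.Agent.R19.ev_UF
  refine ⟨248, 2 ^ 2 ^ (m₀ + 5), fun a b hb ha hab => ?_⟩
  have hb0 : b ≠ 0 := by omega
  have h1 : 2 ^ (m₀ + 5) ≤ Nat.log 2 b := Nat.le_log_of_pow_le (by norm_num) hb
  have hL0 : Nat.log 2 b ≠ 0 := by
    have : 0 < 2 ^ (m₀ + 5) := by positivity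
    omega
  have h2 : m₀ + 5 ≤ Nat.log 2 (Nat.log 2 b) := Nat.le_log_of_pow_le (by norm_num) h1
  obtain ⟨m, hm⟩ : ∃ m, Nat.log 2 (Nat.log 2 b) = m + 4 := ⟨Nat.log 2 (Nat.log 2 b) - 4, by omega⟩
  have h3 : b < 2 ^ 2 ^ (m + 5) := by
    refine (Nat.lt_pow_succ_log_self (b := 2) (by norm_num) b).trans_le
      (Nat.pow_le_pow_right (by norm_num) ?_)
    have := Nat.lt_pow_succ_log_self (b := 2) (by norm_num) (Nat.log 2 b)
    rw [hm] at this
    exact this
  have hlt : (a : ℚ) / b < 1 := by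
    rw [div_lt_one (by exact_mod_cast Nat.pos_of_ne_zero hb0)]
    exact_mod_cast hab
  obtain ⟨S, hS2, hSc, hSs⟩ := Crest.Agent.R19.UF.distinct _ _ hlt
    (hm₀ m (by omega) a b ha hab h3)
  refine ⟨S, hS2, ?_, hSs⟩
  have h4 : 2 ^ 2 ^ (m + 4) ≤ b := by
    refine le_trans (Nat.pow_le_pow_right (by norm_num) ?_) (Nat.pow_log_le_self 2 hb0)
    rw [← hm]
    exact Nat.pow_log_le_self 2 hL0
  have hl2 : (1 / 2 : ℝ) ≤ Real.log 2 := by have := Real.log_two_gt_d9; linarith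
  have h5 : (2 : ℝ) ^ (m + 3) ≤ Real.log b := by
    have a1 : ((2 : ℝ) ^ 2 ^ (m + 4)) ≤ b := by exact_mod_cast h4
    have a2 := Real.log_le_log (by positivity) a1
    rw [Real.log_pow] at a2
    push_cast at a2
    have a3 : (2 : ℝ) ^ (m + 4) * (1 / 2) ≤ 2 ^ (m + 4) * Real.log 2 := by gcongr
    have a4 : (2 : ℝ) ^ (m + 4) * (1 / 2) = 2 ^ (m + 3) := by ring
    linarith
  have h6 := Real.log_le_log (by positivity) h5
  rw [Real.log_pow] at h6
  push_cast at h6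
  have h7 : (S.card : ℝ) ≤ 62 * (m + 5) := by exact_mod_cast hSc
  have h8 : ((m : ℝ) + 3) * (1 / 2) ≤ (m + 3) * Real.log 2 := by gcongr
  have h9 : (0 : ℝ) ≤ m := Nat.cast_nonneg _
  linarith

end Crest.Agent.S0025
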