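import Crest.Statements.S0042
import Crest.Agent.R32.Main

set_option autoImplicit false
open Crest Crest.CombinatoricsR

namespace Crest.Agent.S0042

/-- There are real constants η > 0 and c > 0 and a threshold n₀ such that for every natural number n ≥ n₀ some n points of the closed unit square have the property that every triangle with three distinct vertices among them has area at least c · n ^ (-2 + η). The area of the triangle p q r is half the absolute value of the determinant of q - p and r - p. -/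
theorem result :
    ∃ η : ℝ, 0 < η ∧ ∃ c : ℝ, 0 < c ∧ ∃ n₀ : ℕ, ∀ n : ℕ, n₀ ≤ n →
      ∃ P : Finset (ℝ × ℝ), P.card = n ∧
        (∀ p ∈ P, 0 ≤ p.1 ∧ p.1 ≤ 1 ∧ 0 ≤ p.2 ∧ p.2 ≤ 1) ∧
        ∀ p ∈ P, ∀ q ∈ P, ∀ r ∈ P, p ≠ q → p ≠ r → q ≠ r →
          c * (n : ℝ) ^ (-2 + η) ≤ |(q.1 - p.1) * (r.2 - p.2) - (q.2 - p.2) * (r.1 - p.1)| / 2 := by
  classical
  obtain ⟨D, c, n₀, hD, hc, H⟩ := R32.points
  have hD' : (0 : ℝ) < D := by exact_mod_cast hD
  have hc' : (0 : ℝ) < c := by exact_mod_cast hc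
  refine ⟨(D : ℝ)⁻¹, by positivity, 1 / (2 * c), by positivity, n₀ + 1, fun n hn => ?_⟩
  obtain ⟨y, hy, u, u1, u2, u3⟩ := H n (by omega)
  have hn0 : (0 : ℝ) < n := by exact_mod_cast (by omega : 0 < n)
  have hpos : ∀ i, (0 : ℝ) < u i 2 := fun i => by exact_mod_cast (u1 i).2.2.2.2
  set pt : Fin n → ℝ × ℝ := fun i => ((u i 0 : ℝ) / u i 2, (u i 1 : ℝ) / u i 2) with hpt
  have hinj : Function.Injective pt := fun i j h => by
    by_contra hij
    apply u2 i j hij
    obtain ⟨e0, e1⟩ := Prod.mk.inj h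
    rw [div_eq_div_iff (hpos i).ne' (hpos j).ne'] at e0 e1
    have e0' : u i 0 * u j 2 = u j 0 * u i 2 := by exact_mod_cast e0
    have e1' : u i 1 * u j 2 = u j 1 * u i 2 := by exact_mod_cast e1
    have e2 : u i 0 * u j 1 - u i 1 * u j 0 = 0 :=
      (mul_eq_zero.1 (by linear_combination u j 0 * e1' * (-1) + u j 1 * e0' :
        u j 2 * (u i 0 * u j 1 - u i 1 * u j 0) = 0)).resolve_left (u1 j).2.2.2.2.ne'
    rw [cross_apply]
    funext a
    fin_cases a
    · change u i 1 * u j 2 - u i 2 * u j 1 = 0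
      linear_combination e1'
    · change u i 2 * u j 0 - u i 0 * u j 2 = 0
      linear_combination -e0'
    · exact e2
  refine ⟨Finset.univ.image pt, by rw [Finset.card_image_of_injective _ hinj]; simp, ?_, ?_⟩
  · intro p hp
    obtain ⟨i, -, rfl⟩ := Finset.mem_image.1 hp
    obtain ⟨a0, a1, a2, a3, -⟩ := u1 i
    exact ⟨div_nonneg (by exact_mod_cast a0) (hpos i).le,
      (div_le_one (hpos i)).2 (by exact_mod_cast a1),
      div_nonneg (by exact_mod_cast a2) (hpos i).le, (div_le_one (hpos i)).2 (by exact_mod_cast a3)⟩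
  · intro p hp q hq r hr hpq hpr hqr
    obtain ⟨i, -, rfl⟩ := Finset.mem_image.1 hp
    obtain ⟨j, -, rfl⟩ := Finset.mem_image.1 hq
    obtain ⟨l, -, rfl⟩ := Finset.mem_image.1 hr
    have hij : i ≠ j := fun h => hpq (h ▸ rfl)
    have hil : i ≠ l := fun h => hpr (h ▸ rfl)
    have hjl : j ≠ l := fun h => hqr (h ▸ rfl)
    have h1 := u3 ![i, j, l] (fun a b hab => by
      fin_cases a <;> fin_cases b <;>
        first | rfl | exact absurd hab hij | exact absurd hab hil | exact absurd hab hjl |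
          exact absurd hab hij.symm | exact absurd hab hil.symm | exact absurd hab hjl.symm)
    have h2 : (y : ℝ) * (u i 2 * u j 2 * u l 2) ≤
        c * n ^ 2 * |((R32.cols u ![i, j, l]).det : ℝ)| := by exact_mod_cast h1
    have e : ((pt j).1 - (pt i).1) * ((pt l).2 - (pt i).2) -
        ((pt j).2 - (pt i).2) * ((pt l).1 - (pt i).1) =
        ((R32.cols u ![i, j, l]).det : ℝ) / (u i 2 * u j 2 * u l 2) := by
      have a0 := (hpos i).ne'
      have a1 := (hpos j).ne'
      have a2 := (hpos l).ne'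
      simp only [hpt, Matrix.det_fin_three, R32.cols, Matrix.of_apply, Matrix.cons_val_zero,
        Matrix.cons_val_one, Matrix.cons_val]
      push_cast
      field_simp
      ring
    have hu : (0 : ℝ) < u i 2 * u j 2 * u l 2 := mul_pos (mul_pos (hpos i) (hpos j)) (hpos l)
    have h3 : (n : ℝ) ^ (D : ℝ)⁻¹ ≤ y := by
      rw [← Real.pow_rpow_inv_natCast (Nat.cast_nonneg y) hD.ne']
      exact Real.rpow_le_rpow hn0.le (by exact_mod_cast hy) (by positivity)
    rw [e, abs_div, abs_of_pos hu, Real.rpow_add hn0, Real.rpow_neg hn0.le, Real.rpow_two,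
      le_div_iff₀ (by norm_num), le_div_iff₀ hu]
    calc _ = (n : ℝ) ^ (D : ℝ)⁻¹ * (u i 2 * u j 2 * u l 2) / (c * n ^ 2) := by field_simp
      _ ≤ (y : ℝ) * (u i 2 * u j 2 * u l 2) / (c * n ^ 2) := by gcongr
      _ ≤ _ := by rw [div_le_iff₀ (by positivity)]; linarith

end Crest.Agent.S0042
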