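import Crest.Statements.S0069
import Crest.Agent.R50.Main

set_option autoImplicit false
open Crest Crest.CombinatoricsR

namespace Crest.Agent.S0069

open Crest.Agent.R50 in
/-- the rotation matrix of a quaternion, as a point of `ℝ⁹` -/
noncomputable def rot (x : V4) : EuclideanSpace ℝ (Fin 9) :=
  !₂[x 0 * x 0 + x 1 * x 1 - x 2 * x 2 - x 3 * x 3, 2 * (x 1 * x 2 - x 0 * x 3),
    2 * (x 1 * x 3 + x 0 * x 2), 2 * (x 1 * x 2 + x 0 * x 3),
    x 0 * x 0 - x 1 * x 1 + x 2 * x 2 - x 3 * x 3, 2 * (x 2 * x 3 - x 0 * x 1),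
    2 * (x 1 * x 3 - x 0 * x 2), 2 * (x 2 * x 3 + x 0 * x 1),
    x 0 * x 0 - x 1 * x 1 - x 2 * x 2 + x 3 * x 3]

open Crest.Agent.R50 in
lemma rot_neg (x : V4) : rot (-x) = rot x := by
  simp [rot]

open Crest.Agent.R50 in
lemma dist_rot_sq {x y : V4} (hx : ip x x = 1) (hy : ip y y = 1) :
    dist (rot x) (rot y) ^ 2 = 8 - 8 * ip x y ^ 2 := by
  have h : dist (rot x) (rot y) ^ 2 =
      3 * ip x x ^ 2 + 3 * ip y y ^ 2 + 2 * ip x x * ip y y - 8 * ip x y ^ 2 := by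
    rw [EuclideanSpace.dist_eq, Real.sq_sqrt (Finset.sum_nonneg fun _ _ => sq_nonneg _)]
    simp only [Real.dist_eq, sq_abs, Fin.sum_univ_succ, Fin.sum_univ_zero, rot, ip]
    simp
    ring
  rw [h, hx, hy]
  ring


/-- Some bounded subset of nine-dimensional Euclidean space with at least two points cannot be split into ten parts of strictly smaller diameter: however its points are assigned to ten classes, some class has diameter at least that of the whole set. -/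
theorem result :
    ∃ S : Set (EuclideanSpace ℝ (Fin 9)), Bornology.IsBounded S ∧ S.Nontrivial ∧
      ∀ c : EuclideanSpace ℝ (Fin 9) → Fin 10, ∃ i : Fin 10,
        Metric.diam S ≤ Metric.diam (S ∩ c ⁻¹' {i}) := by
  open Crest.Agent.R50 in
  have hle : ∀ p ∈ rot '' {x | ip x x = 1}, ∀ q ∈ rot '' {x | ip x x = 1}, dist p q ≤ √8 := by
    rintro _ ⟨x, hx, rfl⟩ _ ⟨y, hy, rfl⟩
    refine Real.le_sqrt_of_sq_le ?_
    rw [dist_rot_sq hx hy]
    nlinarith [sq_nonneg (ip x y)]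
  have hbdd : Bornology.IsBounded (rot '' {x | R50.ip x x = 1}) :=
    Metric.isBounded_iff.2 ⟨√8, fun p hp q hq => hle p hp q hq⟩
  have hdiam : Metric.diam (rot '' {x | R50.ip x x = 1}) ≤ √8 :=
    Metric.diam_le_of_forall_dist_le (Real.sqrt_nonneg _) hle
  refine ⟨rot '' {x | R50.ip x x = 1}, hbdd, ?_, fun c => ?_⟩
  · have h0 : R50.ip ![1, 0, 0, 0] ![1, 0, 0, 0] = 1 := by simp [R50.ip]
    have h1 : R50.ip ![0, 1, 0, 0] ![0, 1, 0, 0] = 1 := by simp [R50.ip]
    refine ⟨_, ⟨_, h0, rfl⟩, _, ⟨_, h1, rfl⟩, fun h => ?_⟩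
    have h2 := dist_rot_sq h0 h1
    rw [h, dist_self] at h2
    simp [R50.ip] at h2
  · by_contra hne
    push Not at hne
    obtain ⟨i0, -, hi0⟩ := Finset.exists_max_image Finset.univ
      (fun i : Fin 10 => Metric.diam (rot '' {x | R50.ip x x = 1} ∩ c ⁻¹' {i})) Finset.univ_nonempty
    set d := Metric.diam (rot '' {x | R50.ip x x = 1} ∩ c ⁻¹' {i0}) with hd
    have hd0 : 0 ≤ d := Metric.diam_nonneg
    have hd8 : d ^ 2 < 8 := by
      have h1 : d < √8 := (hne i0).trans_le hdiam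
      have h2 := Real.sq_sqrt (by norm_num : (0 : ℝ) ≤ 8)
      nlinarith
    have hpos : 0 < 1 - d ^ 2 / 8 := by linarith
    refine R50.no_ten_colouring (η := √(1 - d ^ 2 / 8)) (fun x => c (rot x))
      (Real.sqrt_pos.2 hpos) (Real.sqrt_le_one.2 (by nlinarith)) ?_ (fun x => by rw [rot_neg])
    intro x y hx hy hxy
    have h1 : dist (rot x) (rot y) ≤ d := by
      refine le_trans (Metric.dist_le_diam_of_mem (hbdd.subset Set.inter_subset_left)
        (s := rot '' {x | R50.ip x x = 1} ∩ c ⁻¹' {c (rot x)}) ⟨⟨x, hx, rfl⟩, rfl⟩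
        ⟨⟨y, hy, rfl⟩, hxy.symm⟩) (hi0 _ (Finset.mem_univ _))
    have h2 := dist_rot_sq hx hy
    have h3 : dist (rot x) (rot y) ^ 2 ≤ d ^ 2 := pow_le_pow_left₀ dist_nonneg h1 2
    refine Real.sqrt_le_iff.2 ⟨abs_nonneg _, ?_⟩
    rw [sq_abs]
    linarith

end Crest.Agent.S0069
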