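import Crest.Statements.S0085
import Crest.Agent.R63.Main

set_option autoImplicit false
open Crest Crest.CombinatoricsR

namespace Crest.Agent.S0085

/-- For every real C > 0 there are a natural number n, a Boolean function f on the n-dimensional Boolean cube and a natural number d such that: f is non-constant; every Fourier–Walsh coefficient of f (values and inputs read as signs +1 for true and -1 for false, averaged over the uniform cube) indexed by a set of more than d coordinates vanishes, so f has degree at most d; and the sum of the n singleton Fourier–Walsh coefficients of f exceeds C times the square root of d. -/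
theorem result (C : ℝ) (hC : 0 < C) :
    ∃ n : ℕ, ∃ f : (Fin n → Bool) → Bool, ∃ d : ℕ,
      (∃ x y, f x ≠ f y) ∧
      (∀ S : Finset (Fin n), d < S.card →
        ∑ x : Fin n → Bool, ((if f x then (1 : ℝ) else -1) * ∏ i ∈ S, (if x i then (1 : ℝ) else -1)) = 0) ∧
      C * Real.sqrt d <
        ∑ i : Fin n, (∑ x : Fin n → Bool, ((if f x then (1 : ℝ) else -1) * (if x i then (1 : ℝ) else -1))) / 2 ^ n := by
  obtain ⟨κ, _, _, f, d, hdeg, hL⟩ := Crest.Agent.R63.exists_bool C hC
  let e : κ ≃ Fin (Fintype.card κ) := Fintype.equivFin κ
  let E : (Fin (Fintype.card κ) → Bool) ≃ (κ → Bool) := Equiv.arrowCongr e.symm (Equiv.refl Bool)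
  have hE : ∀ x i, E x i = x (e i) := fun _ _ => rfl
  have hcard : (Fintype.card (κ → Bool) : ℝ) = 2 ^ Fintype.card κ := by simp
  refine ⟨Fintype.card κ, fun x => f (E x), d, ?_, fun S hS => ?_, ?_⟩
  · by_contra hcon
    push Not at hcon
    have h1 : ∀ x, f x = f (fun _ => true) := fun x => by
      simpa using hcon (E.symm x) (E.symm fun _ => true)
    have h2 : Finset.univ.expect (fun x : κ → Bool => R63.sg (f x) * R63.SS x) = 0 := by
      have : (fun x : κ → Bool => R63.sg (f x) * R63.SS x) =
          fun x => R63.sg (f fun _ => true) * R63.SS x := funext fun x => by rw [h1 x]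
      rw [this, ← Finset.mul_expect, R63.expect_SS, mul_zero]
    rw [h2] at hL
    have : 0 ≤ C * Real.sqrt d := by positivity
    linarith
  · have h := hdeg (S.map e.symm.toEmbedding) (by simpa using hS)
    rw [Fintype.expect_eq_sum_div_card, div_eq_zero_iff] at h
    rcases h with h | h
    · rw [← h]
      refine Fintype.sum_equiv E _ _ fun x => ?_
      simp [R63.chi, R63.sg, hE]
    · rw [hcard] at h; exact absurd h (by positivity)
  · refine hL.trans_le (le_of_eq ?_)
    rw [Fintype.expect_eq_sum_div_card, hcard, ← Finset.sum_div, Finset.sum_comm]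
    congr 1
    refine (Fintype.sum_equiv E _ _ fun x => ?_).symm
    rw [← Finset.mul_sum, R63.SS]
    congr 1
    exact (Fintype.sum_equiv e _ _ fun i => rfl).symm

end Crest.Agent.S0085
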