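import Crest.Statements.S0100
import Crest.Agent.R75.Analysis
import Crest.Agent.R75.Design

set_option autoImplicit false
open Crest Crest.AnalysisR

namespace Crest.Agent.S0100

/-- For every real `ε` with `0 < ε < 1` there is a threshold `N₀` such that for every integer `N ≥ N₀` one can choose signs `c 0, …, c (N-1)` in `{-1, 1}` so that the polynomial `∑ k, c k * z ^ k` has modulus between `(1 - ε) * √N` and `(1 + ε) * √N` at every complex number `z` of modulus one. -/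
theorem result (ε : ℝ) (hε : 0 < ε)
    (hε₁ : ε < 1) :
    ∃ N₀ : ℕ, ∀ N ≥ N₀, ∃ c : Fin N → ℤˣ, ∀ z : ℂ, ‖z‖ = 1 →
      (1 - ε) * Real.sqrt N ≤ ‖∑ k : Fin N, ((c k : ℤ) : ℂ) * z ^ (k : ℕ)‖ ∧
        ‖∑ k : Fin N, ((c k : ℤ) : ℂ) * z ^ (k : ℕ)‖ ≤ (1 + ε) * Real.sqrt N := by
  obtain ⟨η, hη0, hη1, hround⟩ := R75.round_poly hε
  obtain ⟨ι, _, x, ℓ, t, T, ζ, δ, hP, hδ, hT, ht0, ht1, hζ, hd⟩ :=
    R75.design (ε := η / 4) (by positivity)
  have han := R75.analysis hP hδ t T hT ht0 ht1 ζ hζ (ε := η / 4) (by positivity) (by linarith)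
  obtain ⟨N₀, hN₀⟩ := Filter.eventually_atTop.mp (hround.and han)
  refine ⟨N₀, fun N hN => ?_⟩
  obtain ⟨h1, c, h2, h3⟩ := hN₀ N hN
  obtain ⟨χ, hχ, h4⟩ := h1 c (fun k => by
      obtain ⟨w, H, a1, a2, a3⟩ := h3 k
      have a4 := hd k (k / N) (1 + η / 4) w H a1 a2
      simp only [Int.cast_natCast] at a4
      have a5 := abs_sub_abs_le_abs_sub (c k) (2 * (∑ i, (w (t i) (T i) * √(ℓ i / T i) : ℝ) *
          (ζ i * R75.ee (-(k * x i) + ℓ i * H (t i) (T i)))).re)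
      nlinarith)
    (fun θ => (h2 θ).trans (mul_le_mul_of_nonneg_right (by linarith) (Real.sqrt_nonneg _)))
  classical
  refine ⟨fun k => if χ k = 1 then 1 else -1, fun z hz => ?_⟩
  obtain ⟨θ, rfl⟩ := R75.exists_ee hz
  have e : ∀ k : Fin N, (((if χ k = 1 then 1 else -1 : ℤˣ) : ℤ) : ℂ) = (χ k : ℂ) := fun k => by
    rcases hχ k with h | h
    · simp [h]
    · rw [if_neg (by rw [h]; norm_num), h]; simp
  have a := abs_le.mp (h4 θ)
  simp only [R75.ee_nat_mul] at a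
  simp only [e]
  constructor <;> linarith [a.1, a.2]

end Crest.Agent.S0100
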