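import Crest.Statements.S0103
import Crest.Agent.R78.Newton

set_option autoImplicit false
open Crest Crest.AnalysisR Crest.AnalysisR.OperatorAlgebra

namespace Crest.Agent.S0103

open Crest.Agent.R78 in
/-- the unit ball hypothesis gives a near inclusion -/
theorem near_of_ball {H : Type*} [NormedAddCommGroup H] [InnerProductSpace ℂ H] [CompleteSpace H]
    {M N : VonNeumannAlgebra H} {δ : ℝ}
    (h : ∀ x ∈ M, ‖x‖ ≤ 1 → ∃ y ∈ N, ‖y‖ ≤ 1 ∧ ‖x - y‖ < δ) :
    Near (M : Set (H →L[ℂ] H)) (N : Set (H →L[ℂ] H)) δ := by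
  intro x hx
  by_cases h0 : x = 0
  · exact ⟨0, zero_mem N, by simp [h0]⟩
  have hn : (0 : ℝ) < ‖x‖ := norm_pos_iff.mpr h0
  have hn' : ((‖x‖ : ℝ) : ℂ) ≠ 0 := by exact_mod_cast hn.ne'
  obtain ⟨y, hy, -, hxy⟩ := h ((((‖x‖ : ℝ) : ℂ)⁻¹) • x) (smul_mem_vn _ hx) (by
    rw [norm_smul, norm_inv, Complex.norm_real, Real.norm_eq_abs, abs_of_pos hn,
      inv_mul_cancel₀ hn.ne'])
  refine ⟨((‖x‖ : ℝ) : ℂ) • y, smul_mem_vn _ hy, ?_⟩
  have : x - ((‖x‖ : ℝ) : ℂ) • y = ((‖x‖ : ℝ) : ℂ) • ((((‖x‖ : ℝ) : ℂ)⁻¹) • x - y) := by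
    rw [smul_sub, smul_smul, mul_inv_cancel₀ hn', one_smul]
  rw [this, norm_smul, Complex.norm_real, Real.norm_eq_abs, abs_of_pos hn, mul_comm]
  exact mul_le_mul_of_nonneg_right hxy.le hn.le

/-- For every ε > 0 there is δ > 0 such that, for every complex Hilbert space H and all von Neumann algebras M and N on H for which every element of norm at most 1 of either algebra lies within operator-norm distance less than δ of some element of norm at most 1 of the other, there is a unitary operator u on H with ‖u − 1‖ < ε and u M u⋆ = N (the elements of N are exactly the conjugates u x u⋆ of elements x of M). -/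
theorem result (ε : ℝ) (hε : 0 < ε) :
    ∃ δ : ℝ, 0 < δ ∧
      ∀ (H : Type*) [NormedAddCommGroup H] [InnerProductSpace ℂ H] [CompleteSpace H] (M N : VonNeumannAlgebra H),
        (∀ x ∈ M, ‖x‖ ≤ 1 → ∃ y ∈ N, ‖y‖ ≤ 1 ∧ ‖x - y‖ < δ) →
        (∀ y ∈ N, ‖y‖ ≤ 1 → ∃ x ∈ M, ‖x‖ ≤ 1 ∧ ‖y - x‖ < δ) →
        ∃ u : H →L[ℂ] H, u ∈ unitary (H →L[ℂ] H) ∧ ‖u - 1‖ < ε ∧
          ∀ y : H →L[ℂ] H, y ∈ N ↔ ∃ x ∈ M, y = u * x * star u := by
  obtain ⟨C, δ₀, hC, hδ₀, hK⟩ := Crest.Agent.R78.strong_kk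
  have hδ : 0 < min δ₀ (ε / (2 * C)) := lt_min hδ₀ (by positivity)
  refine ⟨min δ₀ (ε / (2 * C)), hδ, ?_⟩
  intro H _ _ _ M N h1 h2
  obtain ⟨v, hv, hv1, hvN⟩ := hK H M N _ hδ (min_le_left _ _) ⟨near_of_ball h1, near_of_ball h2⟩
  refine ⟨star v, Unitary.star_mem hv, ?_, ?_⟩
  · have e : star v - 1 = star (v - 1) := by simp
    rw [e, norm_star]
    have : C * min δ₀ (ε / (2 * C)) ≤ C * (ε / (2 * C)) :=
      mul_le_mul_of_nonneg_left (min_le_right _ _) hC.le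
    have e2 : C * (ε / (2 * C)) = ε / 2 := by field_simp
    linarith
  · intro y
    rw [star_star]
    have h1 : star v * v = 1 := Unitary.star_mul_self_of_mem hv
    constructor
    · intro hy
      refine ⟨v * y * star v, ?_, ?_⟩
      · rw [← hvN]; exact Crest.Agent.R78.conj_mem_cj hv hy
      · calc y = (star v * v) * y * (star v * v) := by rw [h1, one_mul, mul_one]
          _ = star v * (v * y * star v) * v := by simp only [mul_assoc]
    · rintro ⟨x, hx, rfl⟩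
      rw [← hvN] at hx
      exact (Crest.Agent.R78.mem_cj hv).mp hx

end Crest.Agent.S0103
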