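import Crest.Statements.S0170
import Crest.Agent.R126.Comb

set_option autoImplicit false
open scoped ContDiff
open Crest.AnalysisR.BoxFlow
open Crest Crest.AnalysisR

namespace Crest.Agent.S0170

/-- Finitely many pairwise disjoint rational boxes in 3-space are carried onto disjoint target boxes, each a translated determinant-one positive diagonal rescaling of its source, by the time-one flow of a smooth, compactly supported, effective, divergence-free velocity field active only in [1/4,3/4]. The flow equals the prescribed affine map on a neighbourhood of each source box. Effective: computably approximable mixed derivatives at rational points and computable global derivative bounds. -/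
theorem result
    (n : ℕ) (a b h k : Fin n → Fin 3 → ℚ)
    (hh : ∀ i j, 0 < h i j) (hk : ∀ i j, 0 < k i j)
    (ha : Pairwise fun i i' => Disjoint (box (a i) (h i)) (box (a i') (h i')))
    (hb : Pairwise fun i i' => Disjoint (box (b i) (k i)) (box (b i') (k i')))
    (hvol : ∀ i, ∏ j : Fin 3, k i j / h i j = 1) :
    ∃ (U : Field) (Φ : ℝ → (Fin 3 → ℝ) → (Fin 3 → ℝ)),
      ContDiff ℝ ∞ U ∧ HasCompactSupport U ∧ Effective U ∧
      (∀ p : ℝ × (Fin 3 → ℝ), p.1 ∉ Set.Icc (1 / 4 : ℝ) (3 / 4) → U p = 0) ∧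
      (∀ p : ℝ × (Fin 3 → ℝ), spaceDiv U p = 0) ∧ IsFlow U Φ ∧
      ∀ i : Fin n, ∃ O : Set (Fin 3 → ℝ), IsOpen O ∧ box (a i) (h i) ⊆ O ∧
        ∀ x ∈ O, Φ 1 x = fun j => (b i j : ℝ) + ((k i j / h i j : ℚ) : ℝ) * (x j - (a i j : ℝ)) := by
  obtain ⟨U, gU, cU⟩ := R126.reach_main a b h k hh hk ha hb hvol (1 / 4) (3 / 4) (by norm_num)
  have e1 : (((1 / 4 : ℚ)) : ℝ) = 1 / 4 := by norm_num
  have e2 : (((3 / 4 : ℚ)) : ℝ) = 3 / 4 := by norm_num
  rw [e1, e2] at gU cU
  choose γ hγ0 hγ using R126.exists_global_sol gU.eff.1 gU.cpt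
  refine ⟨U, fun t x => γ x t, gU.eff.1, gU.cpt, gU.eff.effective, fun p hp => gU.time p ?_,
    gU.div, ⟨hγ0, fun t x => hγ x t⟩, fun i => ?_⟩
  · rw [Set.mem_Icc, not_and_or, not_le, not_le] at hp
    exact hp.imp le_of_lt le_of_lt
  · obtain ⟨O, hO, hb, hc⟩ := cU i
    refine ⟨O, hO, hb, fun x hx => ?_⟩
    obtain ⟨β, p, q, r⟩ := hc x hx
    have : γ x = β := R126.sol_unique gU.eff.1 gU.cpt (hγ x) p
      (by rw [hγ0, q 0 (by norm_num)])
    show γ x 1 = _
    rw [this, r 1 (by norm_num)]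
    rfl

end Crest.Agent.S0170
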