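import Crest.Statements.S0181
import Crest.Agent.R132.PoissonKernel
import Crest.Agent.R132.PoissonNorm
import Crest.Agent.R132.PoissonGeom

set_option autoImplicit false
open scoped ComplexOrder
open Crest.AnalysisR.NumRange
open Crest Crest.AnalysisR Crest.AnalysisR.NumRange

namespace Crest.Agent.S0181

/-- Setting of the optimal-metric statement; also G is holomorphic and injective on {t : r < ‖t‖} for some r < 1 with G({t : 1 < ‖t‖}) the complement of the closure of Ω, (H, κ²) is an optimal metric pair for f(A), and S ≽ 0 with S² = H. Then one continuous 2π-periodic positive semidefinite density Λ of mean I gives, for all m ≥ 1 and m × m matrix-valued v holomorphic near the closure of Ω, v[SAS⁻¹] = (1/2π) ∫ Λ(θ) ⊗ v(G(e^{iθ})) dθ entrywise, and ‖v[A]‖ ≤ κ sup ‖v‖ over the closure of Ω. -/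
theorem result
    (n : ℕ) (hn : 1 ≤ n) (A : Matrix (Fin n) (Fin n) ℂ)
    (Ω U : Set ℂ) (hΩ₁ : IsOpen Ω) (hΩ₂ : Bornology.IsBounded Ω) (hΩ₃ : Convex ℝ Ω)
    (hU : IsOpen U) (hΩU : closure Ω ⊆ U)
    (f : ℂ → ℂ) (hf₁ : DifferentiableOn ℂ f U) (hf₂ : Set.InjOn f U)
    (hf₃ : f '' Ω = Metric.ball 0 1)
    (G : ℂ → ℂ) (r : ℝ) (hr₁ : 0 < r) (hr₂ : r < 1)
    (hG₁ : DifferentiableOn ℂ G {t : ℂ | r < ‖t‖}) (hG₂ : Set.InjOn G {t : ℂ | r < ‖t‖})
    (hG₃ : G '' {t : ℂ | 1 < ‖t‖} = (closure Ω)ᶜ)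
    (hA : numRange A ⊆ Ω) (p : Polynomial ℂ) (hp : AgreesOnSpectrum A f p)
    (H : Matrix (Fin n) (Fin n) ℂ) (κsq : ℝ) (hH : IsOptimalMetric (Polynomial.aeval A p) H κsq)
    (S : Matrix (Fin n) (Fin n) ℂ) (hS₁ : S.PosSemidef) (hS₂ : S * S = H) :
    ∃ Λ : ℝ → Matrix (Fin n) (Fin n) ℂ, Continuous Λ ∧ Function.Periodic Λ (2 * Real.pi) ∧
      (∀ θ, (Λ θ).PosSemidef) ∧
      (∀ a b, (2 * Real.pi : ℂ)⁻¹ * (∫ θ in (0 : ℝ)..2 * Real.pi, Λ θ a b)
        = (1 : Matrix (Fin n) (Fin n) ℂ) a b) ∧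
      ∀ (m : ℕ), 1 ≤ m → ∀ (V : Set ℂ), IsOpen V → closure Ω ⊆ V →
        ∀ v : ℂ → Matrix (Fin m) (Fin m) ℂ, (∀ c d, DifferentiableOn ℂ (fun z => v z c d) V) →
        ∀ q : Fin m → Fin m → Polynomial ℂ,
          (∀ c d, AgreesOnSpectrum A (fun z => v z c d) (q c d)) →
          (∀ a b c d, Polynomial.aeval (S * A * S⁻¹) (q c d) a b =
              (2 * Real.pi : ℂ)⁻¹ * (∫ θ in (0 : ℝ)..2 * Real.pi,
                Λ θ a b * v (G (Complex.exp ((θ : ℂ) * Complex.I))) c d)) ∧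
          ∀ M : ℝ, (∀ z ∈ closure Ω, ‖Matrix.toEuclideanCLM (n := Fin m) (𝕜 := ℂ) (v z)‖ ≤ M) →
            ‖Matrix.toEuclideanCLM (n := Fin n × Fin m) (𝕜 := ℂ)
                (Matrix.of fun (i : Fin n × Fin m) (j : Fin n × Fin m) =>
                  Polynomial.aeval A (q i.2 j.2) i.1 j.1)‖ ≤ Real.sqrt κsq * M := by
  obtain ⟨⟨hH1, hH2, hH3⟩, -⟩ := hH
  have hSh : S.conjTranspose = S := hS₁.isHermitian.eq
  -- `S` is invertible
  have hSu : IsUnit S.det := by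
    have h1 : H.PosDef := by
      have := Matrix.PosDef.posSemidef_add hH1 (Matrix.PosDef.one (n := Fin n) (R := ℂ))
      simpa using this
    have h2 : IsUnit H.det := (Matrix.isUnit_iff_isUnit_det _).1 h1.isUnit
    rw [← hS₂, Matrix.det_mul] at h2
    exact isUnit_of_mul_isUnit_left h2
  have hSS : S * S⁻¹ = 1 := Matrix.mul_nonsing_inv _ hSu
  have hSS' : S⁻¹ * S = 1 := Matrix.nonsing_inv_mul _ hSu
  have hSih : S⁻¹.conjTranspose = S⁻¹ := by rw [Matrix.conjTranspose_nonsing_inv, hSh]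
  let Φ : Matrix (Fin n) (Fin n) ℂ →ₐ[ℂ] Matrix (Fin n) (Fin n) ℂ :=
    { toFun := fun M => S * M * S⁻¹
      map_one' := by rw [Matrix.mul_one, hSS]
      map_mul' := fun M N => by
        simp only [Matrix.mul_assoc]
        rw [← Matrix.mul_assoc S⁻¹ S, hSS', Matrix.one_mul]
      map_zero' := by simp
      map_add' := fun M N => by simp only [Matrix.mul_add, Matrix.add_mul]
      commutes' := fun c => by
        simp only [Algebra.algebraMap_eq_smul_one, Matrix.mul_smul, Matrix.smul_mul,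
          Matrix.mul_one, hSS] }
  have hΦ : ∀ M, Φ M = S * M * S⁻¹ := fun _ => rfl
  have hroot := R132.isRoot_charpoly_mem hA
  have hΩU' : Ω ⊆ U := subset_closure.trans hΩU
  have hT := (R132.FC.of_agrees hΩ₁ hroot (hf₁.mono hΩU') hp).map Φ
  set C : Matrix (Fin n) (Fin n) ℂ := Φ (Polynomial.aeval A p) with hCdef
  have hχA : Polynomial.aeval (Φ A) A.charpoly = 0 := by
    rw [Polynomial.aeval_algHom_apply, Matrix.aeval_self_charpoly, map_zero]
  have hfΩ : ∀ z ∈ Ω, ‖f z‖ < 1 := fun z hz => by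
    have : f z ∈ Metric.ball (0 : ℂ) 1 := hf₃ ▸ Set.mem_image_of_mem f hz
    simpa using this
  have hC : ∀ ζ : ℂ, ‖ζ‖ ≤ 1 → IsUnit (1 - ζ • C) := by
    intro ζ hζ
    refine (R132.FC.one.sub (hT.smul ζ)).isUnit hΩ₁ A.charpoly_monic hroot hχA fun z hz h0 => ?_
    have h1 : ‖ζ * f z‖ < 1 := by
      rw [norm_mul]
      exact mul_lt_one_of_nonneg_of_lt_one_right hζ (norm_nonneg _) (hfΩ z hz)
    rw [← sub_eq_zero.1 h0] at h1
    simp at h1
  have hCc : (1 - C.conjTranspose * C).PosSemidef := by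
    have h1 := hH3.conjTranspose_mul_mul_same S⁻¹
    have e : S⁻¹.conjTranspose * (H - (Polynomial.aeval A p).conjTranspose * H *
        Polynomial.aeval A p) * S⁻¹ = 1 - C.conjTranspose * C := by
      rw [hCdef, hΦ, Matrix.conjTranspose_mul, Matrix.conjTranspose_mul, hSih, hSh, ← hS₂,
        Matrix.mul_sub, Matrix.sub_mul, ← Matrix.mul_assoc S⁻¹ S S, hSS', Matrix.one_mul, hSS]
      simp only [Matrix.mul_assoc]
    rwa [e] at h1
  have hCroot : ∀ μ, C.charpoly.IsRoot μ → μ ∈ Metric.ball (0 : ℂ) 1 := fun μ hμ =>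
    hf₃ ▸ hT.spectrum_subset hΩ₁ A.charpoly_monic hroot hχA
      (Matrix.mem_spectrum_iff_isRoot_charpoly.2 hμ)
  obtain ⟨ρ, hρc, hρp, hρ0, hρ⟩ :=
    R132.exists_boundary_weight hΩ₁ hU hΩU hf₁ hf₂ hf₃ hr₂ hG₁ hG₂ hG₃
  have he : ∀ θ : ℝ, ‖Complex.exp (θ * Complex.I)‖ = 1 := Complex.norm_exp_ofReal_mul_I
  have her : ∀ θ : ℝ, Complex.exp (θ * Complex.I) ∈ {t : ℂ | r < ‖t‖} := fun θ => by
    show r < _
    rw [he]; exact hr₂
  have hmem := fun θ : ℝ => R132.ext_map_mem hΩ₁ hr₂ hG₁ hG₂ hG₃ (he θ)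
  have hGc : Continuous fun θ : ℝ => G (Complex.exp (θ * Complex.I)) :=
    hG₁.continuousOn.comp_continuous (by fun_prop) her
  have hζc : Continuous fun θ : ℝ => f (G (Complex.exp (θ * Complex.I))) :=
    hf₁.continuousOn.comp_continuous hGc fun θ => hΩU (hmem θ).1
  have hζ1 : ∀ θ : ℝ, ‖f (G (Complex.exp (θ * Complex.I)))‖ = 1 := fun θ =>
    R132.norm_map_boundary hΩU hf₁ hf₂ hf₃ (hmem θ).1 (hmem θ).2
  have hep : ∀ θ : ℝ, Complex.exp (((θ + 2 * Real.pi : ℝ) : ℂ) * Complex.I) =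
      Complex.exp (θ * Complex.I) := by
    intro θ
    push_cast
    rw [add_mul, Complex.exp_add, Complex.exp_two_pi_mul_I, mul_one]
  set Λ : ℝ → Matrix (Fin n) (Fin n) ℂ :=
    fun θ => (ρ θ : ℂ) • R132.poisK C (f (G (Complex.exp (θ * Complex.I)))) with hΛ
  have hΛc : Continuous Λ := continuous_matrix fun a b =>
    (Complex.continuous_ofReal.comp hρc).mul
      ((R132.poisK_contS hC a b).comp_continuous hζc fun θ => by simpa using hζ1 θ)
  have hΛpos : ∀ θ, (Λ θ).PosSemidef := fun θ =>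
    (R132.poisK_posSemidef hC hCc (hζ1 θ)).smul (Complex.zero_le_real.2 (hρ0 θ))
  -- the key integral formula
  have key : ∀ (V : Set ℂ), IsOpen V → closure Ω ⊆ V → ∀ (u : ℂ → ℂ), DifferentiableOn ℂ u V →
      ∀ M, R132.FC A.charpoly (Φ A) Ω u M → ∀ a b, M a b = (2 * Real.pi : ℂ)⁻¹ *
        (∫ θ in (0 : ℝ)..2 * Real.pi, Λ θ a b * u (G (Complex.exp ((θ : ℂ) * Complex.I)))) := by
    intro V hV hΩV u hu M hM a b
    have hD : IsOpen (f '' (U ∩ V)) :=
      RMT.isOpen_image_of_subset hf₁ hf₂ (hU.inter hV) Set.inter_subset_left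
    have hD1 : Metric.closedBall 0 1 ⊆ f '' (U ∩ V) :=
      (R132.closedBall_subset_image hΩ₂ hΩU hf₁ hf₃).trans
        (Set.image_mono (Set.subset_inter hΩU hΩV))
    have hw : DifferentiableOn ℂ (fun ζ => u (Function.invFunOn f U ζ)) (f '' (U ∩ V)) := by
      refine hu.comp ((RMT.differentiableOn_invFunOn hU hf₁ hf₂).mono
        (Set.image_mono Set.inter_subset_left)) ?_
      rintro _ ⟨z, hz, rfl⟩
      rw [RMT.invFunOn_apply hf₂ hz.1]
      exact hz.2
    obtain ⟨N, hN⟩ := R132.FC.exists C hD C.charpoly_monic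
      (fun μ hμ => hD1 (Metric.ball_subset_closedBall (hCroot μ hμ))) hw
    have hNM : N = M := by
      refine R132.FC.unique hΩ₁ A.charpoly_monic hroot hχA ?_ hM
      refine (hT.comp hΩ₁ A.charpoly_monic hroot (Matrix.aeval_self_charpoly C)
        (fun z hz => Set.mem_image_of_mem f (Set.mem_inter (hΩU' hz) (hΩV (subset_closure hz))))
        hN).congr fun z hz => ?_
      rw [RMT.invFunOn_apply hf₂ (hΩU' hz)]
    have h1 := R132.poisson_formula hC (Matrix.aeval_self_charpoly C) hD hD1 hN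
    have h2 := hρ (fun ζ => u (Function.invFunOn f U ζ) * R132.poisK C ζ a b)
      ((hw.continuousOn.mono (Metric.sphere_subset_closedBall.trans hD1)).mul
        (R132.poisK_contS hC a b))
    rw [← hNM, ← h1]
    refine h2.symm.trans ?_
    congr 1
    refine intervalIntegral.integral_congr fun θ _ => ?_
    simp only [hΛ, Matrix.smul_apply, smul_eq_mul]
    rw [RMT.invFunOn_apply hf₂ (hΩU (hmem θ).1)]
    ring
  have hΛ1 : ∀ a b, (2 * Real.pi : ℂ)⁻¹ * (∫ θ in (0 : ℝ)..2 * Real.pi, Λ θ a b)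
      = (1 : Matrix (Fin n) (Fin n) ℂ) a b := by
    intro a b
    have := key Set.univ isOpen_univ (Set.subset_univ _) (fun _ => 1) (differentiableOn_const _)
      1 R132.FC.one a b
    simpa using this.symm
  refine ⟨Λ, hΛc, fun θ => by simp only [hΛ, hρp θ, hep], hΛpos, hΛ1,
    fun m _ V hV hΩV v hv q hq => ?_⟩
  have hform : ∀ a b c d, Polynomial.aeval (S * A * S⁻¹) (q c d) a b =
      (2 * Real.pi : ℂ)⁻¹ * (∫ θ in (0 : ℝ)..2 * Real.pi,
        Λ θ a b * v (G (Complex.exp ((θ : ℂ) * Complex.I))) c d) := by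
    intro a b c d
    have h1 := (R132.FC.of_agrees hΩ₁ hroot ((hv c d).mono (subset_closure.trans hΩV))
      (hq c d)).map Φ
    rw [← Polynomial.aeval_algHom_apply] at h1
    exact key V hV hΩV _ (hv c d) _ h1 a b
  refine ⟨hform, fun M hM => ?_⟩
  have hM0 : 0 ≤ M := (norm_nonneg _).trans (hM _ (hmem 0).1)
  refine R132.opNorm_conj_le hS₁.isHermitian hS₂ hSu hH1 hH2
    (Y := Matrix.of fun (i : Fin n × Fin m) (j : Fin n × Fin m) =>
      Polynomial.aeval (S * A * S⁻¹) (q i.2 j.2) i.1 j.1) ?_ hM0 ?_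
  · ext ⟨a, c⟩ ⟨b, d⟩
    have e : Polynomial.aeval A (q c d) = S⁻¹ * (Polynomial.aeval (S * A * S⁻¹) (q c d) * S) := by
      rw [← hΦ A, Polynomial.aeval_algHom_apply, hΦ, Matrix.mul_assoc _ S⁻¹ S, hSS',
        Matrix.mul_one, ← Matrix.mul_assoc, hSS', Matrix.one_mul]
    rw [Matrix.of_apply, e]
    simp [Matrix.mul_apply, Fintype.sum_prod_type, Matrix.one_apply]
  · exact R132.en_integral_le hΛc hΛpos hΛ1
      (v := fun θ => v (G (Complex.exp ((θ : ℂ) * Complex.I))))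
      (continuous_matrix fun c d =>
        (hv c d).continuousOn.comp_continuous hGc fun θ => hΩV (hmem θ).1)
      (fun θ => hM _ (hmem θ).1) fun i j => hform i.1 j.1 i.2 j.2

end Crest.Agent.S0181
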