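import Crest.Statements.S0262
import Crest.Agent.R174.Top
import Crest.Agent.R174.Word
import Crest.Agent.R174.LemN
import Crest.Agent.R174.Alg
import Crest.Agent.R174.Final

set_option autoImplicit false
open Monoid
open Crest Crest.AlgebraR

namespace Crest.Agent.S0262

/-- Let `G` be a group, `1 ≤ m ≤ n`, and `w : Fin m → G ∗ F_n` a family of words in the free product of `G` with the free group on `n` letters. Form the `m × n` matrix whose `(i, j)` entry is the exponent sum of the `j`-th letter in `w i` (elements of `G` contribute nothing). If this matrix has rank `m` over `ℚ`, then the natural map from `G` to the quotient of the free product by the normal closure of the `w i` is injective: the equations `w i = 1` have a common solution in a group containing `G`. -/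
theorem result (G : Type*) [Group G] (n m : ℕ)
    (hm : 1 ≤ m) (hmn : m ≤ n)
    (w : Fin m → Coprod G (FreeGroup (Fin n)))
    (hrank : (Matrix.of fun (i : Fin m) (j : Fin n) =>
      ((Multiplicative.toAdd
          (Coprod.lift (1 : G →* Multiplicative (Fin n → ℤ))
            (FreeGroup.lift fun k => Multiplicative.ofAdd (Pi.single k 1)) (w i)) j : ℤ) : ℚ)).rank
        = m) :
    Function.Injective ((QuotientGroup.mk' (Subgroup.normalClosure (Set.range w))).comp
      (Coprod.inl : G →* Coprod G (FreeGroup (Fin n)))) := by
  classical
  by_contra hn
  obtain ⟨g, d, v, L, hg, hd, hv, hL, hmem⟩ := R174.alg_reduction G n m w hrank hn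
  refine R174.final_contra (R174.lemN _) ?_ g d v L hg hd hv hL hmem
  intro B k hB
  haveI : Nonempty B := hB.to_subtype
  obtain ⟨τ, hτ⟩ := R174.exists_ftrace (EuclideanSpace ℂ (Fin (k + 1) × B))
  exact R174.topStmt_of hτ _ _ _ fun L d hd hL =>
    R174.deg_wordMap_ne_zero (R174.degHomotopy (R174.isFTrace_pi hτ _)) L d hd hL

end Crest.Agent.S0262
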