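import Crest.Statements.S0323
import Crest.Agent.R210.Main

set_option autoImplicit false
open Crest.GeometryTopology.EditDistance
open Crest Crest.GeometryTopology Crest.GeometryTopology.EditDistance

namespace Crest.Agent.S0323

/-- There are constants `c > 0` and `d₀` such that for every `d ≥ d₀` some length `n ≤ d` has the following property: any map `f` from binary words into real `ℓ¹` that, after a common rescaling `s > 0`, satisfies `s · ed(x,y) ≤ ‖f x - f y‖ ≤ D · s · ed(x,y)` for all distinct binary words `x`, `y` of length exactly `n`, has `D ≥ exp (c √(log d · log log d))`. Here `ed` is unit-cost edit distance (insertions, deletions, substitutions, intermediate words of any length). -/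
theorem result :
    ∃ c : ℝ, 0 < c ∧ ∃ d₀ : ℕ, ∀ d : ℕ, d₀ ≤ d → ∃ n : ℕ, n ≤ d ∧
      ∀ (f : List Bool → lp (fun _ : ℕ => ℝ) 1) (s D : ℝ), 0 < s →
        (∀ x y : List Bool, x.length = n → y.length = n → x ≠ y →
          s * (editDist x y : ℝ) ≤ ‖f x - f y‖ ∧ ‖f x - f y‖ ≤ D * s * (editDist x y : ℝ)) →
        Real.exp (c * Real.sqrt (Real.log d * Real.log (Real.log d))) ≤ D := by
  obtain ⟨W, hW⟩ : ∃ W : ℕ, 13056 ≤ W := ⟨_, le_rfl⟩
  refine ⟨1 / 1120, by norm_num, W ^ (408 * W ^ 4), fun d hd => ?_⟩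
  have hself : ∀ v : ℕ, 0 < v → v ≤ v ^ (408 * v ^ 4) := fun v hv =>
    Nat.le_self_pow (by positivity) v
  have hWd : W ≤ d := (hself W (by omega)).trans hd
  obtain ⟨w, hw⟩ : ∃ w, w = Nat.findGreatest (fun v => v ^ (408 * v ^ 4) ≤ d) d := ⟨_, rfl⟩
  have h1 : W ≤ w := hw ▸ Nat.le_findGreatest hWd hd
  have h2 : w ^ (408 * w ^ 4) ≤ d :=
    hw ▸ Nat.findGreatest_spec (P := fun v => v ^ (408 * v ^ 4) ≤ d) hWd hd
  have h3 : d < (w + 1) ^ (408 * (w + 1) ^ 4) := by
    by_contra h
    rw [not_lt] at h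
    have := Nat.le_findGreatest (P := fun v => v ^ (408 * v ^ 4) ≤ d)
      ((hself _ (Nat.succ_pos w)).trans h) h
    omega
  obtain ⟨n, hn, hcore⟩ := R210.core w (by omega)
  refine ⟨n, hn.trans h2, fun f s D hs hf => ?_⟩
  obtain ⟨hD, h4⟩ := hcore f s D hs hf
  have hw' : (13056 : ℝ) ≤ w := by exact_mod_cast hW.trans h1
  have hd1 : (1 : ℝ) < d := by exact_mod_cast (by omega : 1 < d)
  have a1 : (d : ℝ) ≤ ((w : ℝ) + 1) ^ (408 * (w + 1) ^ 4) := by exact_mod_cast h3.le
  clear hself hWd hw h1 h2 h3 hd hW hn hcore hf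
  have hw0 : (0 : ℝ) < w := by linarith
  obtain ⟨L, hL⟩ : ∃ L, L = Real.log w := ⟨_, rfl⟩
  have hL0 : 0 ≤ L := hL ▸ Real.log_nonneg (by linarith)
  have hLw : L ≤ w := hL ▸ (Real.log_le_sub_one_of_pos hw0).trans (by linarith)
  have hd0 : 0 < Real.log d := Real.log_pos hd1
  have h5 : Real.log d ≤ 13056 * w ^ 4 * L := by
    have a2 := Real.log_le_log (by linarith) a1
    rw [Real.log_pow] at a2
    have a3 : Real.log (w + 1) ≤ 2 * L := by
      have := Real.log_le_log (by linarith) (show (w : ℝ) + 1 ≤ w ^ 2 by nlinarith)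
      rw [Real.log_pow, ← hL] at this
      exact_mod_cast this
    have a4 : ((w : ℝ) + 1) ^ 4 ≤ (2 * w) ^ 4 := by gcongr; linarith
    push_cast at a2
    calc Real.log d ≤ 408 * (w + 1) ^ 4 * Real.log (w + 1) := a2
      _ ≤ 408 * (2 * w) ^ 4 * (2 * L) := by
        gcongr
        exact Real.log_nonneg (by linarith)
      _ = 13056 * w ^ 4 * L := by ring
  have h6 : Real.log (Real.log d) ≤ 6 * L := by
    have a1 : Real.log d ≤ (w : ℝ) ^ 6 := by
      calc Real.log d ≤ 13056 * w ^ 4 * L := h5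
        _ ≤ w * w ^ 4 * w := by gcongr
        _ = w ^ 6 := by ring
    have := Real.log_le_log hd0 a1
    rw [Real.log_pow, ← hL] at this
    exact_mod_cast this
  have h7 : Real.sqrt (Real.log d * Real.log (Real.log d)) ≤ 280 * (w ^ 2 * L) := by
    rw [Real.sqrt_le_left (by positivity)]
    calc Real.log d * Real.log (Real.log d) ≤ Real.log d * (6 * L) :=
          mul_le_mul_of_nonneg_left h6 hd0.le
      _ ≤ 13056 * w ^ 4 * L * (6 * L) := by gcongr
      _ = 78336 * (w ^ 2 * L) ^ 2 := by ring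
      _ ≤ 78400 * (w ^ 2 * L) ^ 2 := by gcongr; norm_num
      _ = (280 * (w ^ 2 * L)) ^ 2 := by ring
  have h8 := Real.log_le_log (by positivity) h4
  rw [Real.log_mul (by positivity) hD.ne', Real.log_mul (by positivity) (by positivity),
    Real.log_pow, Real.log_pow, Real.log_pow, ← hL] at h8
  have h9 : 2 * Real.log 32 ≤ L := by
    have := Real.log_le_log (by norm_num) (show (32 : ℝ) ^ 2 ≤ w by linarith)
    rw [Real.log_pow, ← hL] at this
    exact_mod_cast this
  push_cast at h8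
  have h10 : (w : ℝ) ^ 2 * (2 * Real.log 32) ≤ w ^ 2 * L := by gcongr
  have h11 : 24 * L ≤ (w : ℝ) ^ 2 * L := by gcongr; nlinarith
  rw [← Real.exp_log hD]
  exact Real.exp_le_exp.mpr (by linarith)

end Crest.Agent.S0323
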