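import Crest.Statements.S0370
import Crest.Agent.R239.Top

set_option autoImplicit false
open Crest Crest.GeometryTopology

namespace Crest.Agent.S0370

/-- There is an absolute constant `C` such that, in every dimension `d`, every finite sequence of vectors of Euclidean norm at most one in `ℝ^d` admits one choice of signs `±1` under which every signed prefix sum has Euclidean norm at most `C * √d`. -/
theorem result :
    ∃ C : ℝ, ∀ (d N : ℕ) (v : Fin N → EuclideanSpace ℝ (Fin d)),
      (∀ i, ‖v i‖ ≤ 1) →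
      ∃ ε : Fin N → ℤ, (∀ i, ε i = 1 ∨ ε i = -1) ∧
        ∀ k : ℕ, k ≤ N →
          ‖∑ i ∈ Finset.univ.filter (fun i : Fin N => (i : ℕ) < k), (ε i : ℝ) • v i‖ ≤ C * Real.sqrt d := by
  obtain ⟨C, hC, h⟩ := Crest.Agent.R239.loop_signs
  refine ⟨Real.sqrt C, ?_⟩
  intro d N v hv
  rcases Nat.eq_zero_or_pos d with rfl | hd
  · refine ⟨fun _ => 1, fun _ => Or.inl rfl, fun k _ => ?_⟩
    rw [Subsingleton.elim (∑ i ∈ Finset.univ.filter (fun i : Fin N => (i : ℕ) < k),
      (((fun _ => 1 : Fin N → ℤ) i : ℤ) : ℝ) • v i) 0, norm_zero]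
    positivity
  classical
  let w : ℕ → EuclideanSpace ℝ (Fin d) := fun t =>
    if h : 1 ≤ t ∧ t - 1 < N then v ⟨t - 1, h.2⟩ else 0
  obtain ⟨σ, hσ, hb⟩ := h d N w hd (by
    intro t
    simp only [w]
    split_ifs
    · exact hv _
    · simp) (by simp [w])
  refine ⟨fun i => if σ (i + 1) = 1 then 1 else -1, fun i => by
    by_cases h1 : σ (i + 1) = 1 <;> simp [h1], fun k hk => ?_⟩
  have e : ∑ i ∈ Finset.univ.filter (fun i : Fin N => (i : ℕ) < k),
      (((if σ (i + 1) = 1 then 1 else -1 : ℤ)) : ℝ) • v i =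
      ∑ t ∈ Finset.Ioc 0 k, σ t • w t := by
    refine Finset.sum_bij (fun i _ => (i : ℕ) + 1) ?_ ?_ ?_ ?_
    · intro i hi
      have := (Finset.mem_filter.1 hi).2
      simp only [Finset.mem_Ioc]
      omega
    · intro i _ j _ hij
      exact Fin.ext (by simpa using hij)
    · intro t ht
      have := Finset.mem_Ioc.1 ht
      exact ⟨⟨t - 1, by omega⟩, Finset.mem_filter.2 ⟨Finset.mem_univ _, by simp; omega⟩,
        by simp; omega⟩
    · intro i _
      have hw : w (i + 1) = v i := by
        simp [w]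
      rw [hw]
      congr 1
      rcases hσ (i + 1) i.2 with h1 | h1
      · simp [h1]
      · rw [h1]; norm_num
  rw [e, ← Real.sqrt_mul hC]
  exact Real.le_sqrt_of_sq_le (hb k hk)

end Crest.Agent.S0370
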