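import Crest.Statements.S0440
import Crest.Agent.R291.Final

set_option autoImplicit false
open Crest.Depth3
open Crest Crest.LogicCS

namespace Crest.Agent.S0440

/-- There is a set of bit strings decidable in polynomial time whose restriction to each input length n needs OR-AND-OR circuits (unbounded fan-in, free input negations, all gates counted) of size more than 2^(A·√n): for every real A > 0 and all sufficiently large n, every such depth-three circuit that accepts exactly the length-n members of the set has more than 2^(A·√n) gates. -/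
theorem result :
    ∃ L : Set (List Bool), Crest.Complexity.InP L ∧
      ∀ A : ℝ, 0 < A → ∃ N : ℕ, ∀ n ≥ N, ∀ c : Circuit n,
        (∀ x : Fin n → Bool, c.eval x ↔ List.ofFn x ∈ L) →
          (2 : ℝ) ^ (A * Real.sqrt n) < (c.size : ℝ) := by
  refine ⟨Crest.Agent.R291.lang, Crest.Agent.R291.inP_lang, fun A hA => ?_⟩
  obtain ⟨R, hR⟩ := Crest.Agent.R291.lower ⌈A⌉₊ (Nat.ceil_pos.2 hA)
  refine ⟨R ^ 4, fun n hn c hc => ?_⟩
  have h1 : R ≤ Crest.Agent.R291.rt n := by
    have := lt_of_pow_lt_pow_left₀ 4 (by omega)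
      (lt_of_le_of_lt hn (Crest.Agent.R291.rt_spec n).2)
    omega
  have h2 : ((2 ^ (⌈A⌉₊ * (n.sqrt + 1)) : ℕ) : ℝ) < c.size := by exact_mod_cast hR n h1 c hc
  refine lt_of_le_of_lt ?_ h2
  rw [Nat.cast_pow, Nat.cast_ofNat, ← Real.rpow_natCast]
  refine Real.rpow_le_rpow_of_exponent_le (by norm_num) ?_
  push_cast
  exact mul_le_mul (Nat.le_ceil A) Real.real_sqrt_le_nat_sqrt_succ (Real.sqrt_nonneg _)
    (Nat.cast_nonneg _)

end Crest.Agent.S0440
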