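import Crest.Statements.S0501
import Crest.Agent.R324.Top

set_option autoImplicit false
open Crest Crest.LogicCS

namespace Crest.Agent.S0501

/-- For some constant C and threshold N₀ and every n ≥ N₀, some exact complex linear circuit (each gate adds or subtracts two available values or multiplies one by an arbitrary fixed complex scalar; the inputs and the constant 0 are available at the start; every gate counts one) computes the unnormalized discrete Fourier transform of order n on every complex input vector with at most C · n · (log n)^θ · (log log n)^(4 − θ) gates, where θ = log_m (m − Δ/2^71), m = 10^6, Δ = 6871402692000000. -/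
theorem result :
    ∃ C : ℝ, ∃ N₀ : ℕ, ∀ n ≥ N₀, ∃ P : Crest.FourierCircuit.LinCircuit n,
      P.Computes (Crest.FourierCircuit.dftMatrix n) ∧
        (P.size : ℝ) ≤ C * n * Real.log n ^ Crest.FourierCircuit.savingExponent *
          Real.log (Real.log n) ^ (4 - Crest.FourierCircuit.savingExponent) := by
  obtain ⟨A, hA0, hA⟩ := R324.PC_pow
  have hθ := R324.theta_nonneg
  have hθ1 := R324.theta_le_one
  have hlog : ∀ m : ℕ, 1 ≤ m → (Nat.log 2 m : ℝ) ≤ 2 * Real.log m := by
    intro m hm
    have h1 : ((2 ^ Nat.log 2 m : ℕ) : ℝ) ≤ m := by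
      exact_mod_cast Nat.pow_log_le_self 2 (show m ≠ 0 by omega)
    have h2 := Real.log_le_log (by positivity) h1
    push_cast at h2
    rw [Real.log_pow] at h2
    have h3 := Real.log_two_gt_d9
    have h4 : (0 : ℝ) ≤ Nat.log 2 m := Nat.cast_nonneg _
    nlinarith
  refine ⟨10 + 16 * (1 + 6 * R324.Wb) * (47000 * (33 * A + 5) + 1), 2 ^ 21, fun n hn => ?_⟩
  have hn1 : 1 ≤ n := le_trans Nat.one_le_two_pow hn
  have hu : 21 ≤ Nat.log 2 (2 * n) + 1 := by
    have := Nat.le_log_of_pow_le (b := 2) (by norm_num) (show 2 ^ 21 ≤ 2 * n by omega)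
    omega
  obtain ⟨P, hP, hs⟩ := (R324.mc_dft hA0 hA n (Nat.log 2 (2 * n) + 1) hn1 hu
    (Nat.lt_pow_succ_log_self (by norm_num) _).le).circuit
  refine ⟨P, hP, hs.trans ?_⟩
  have hn0 : (0 : ℝ) < n := by exact_mod_cast hn1
  have hl : 3 ≤ Real.log n := by
    have h1 : ((2 ^ 21 : ℕ) : ℝ) ≤ n := by exact_mod_cast hn
    have h2 := Real.log_le_log (by positivity) h1
    push_cast at h2
    have h3 : Real.log 2097152 = 21 * Real.log 2 := by
      rw [show (2097152 : ℝ) = 2 ^ 21 by norm_num, Real.log_pow]; norm_num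
    have h4 := Real.log_two_gt_d9
    linarith
  have hll : 1 ≤ Real.log (Real.log n) := by
    rw [Real.le_log_iff_exp_le (by linarith)]
    have := Real.exp_one_lt_d9
    linarith
  have hu2 : ((Nat.log 2 (2 * n) + 1 : ℕ) : ℝ) ≤ 5 * Real.log n := by
    have h1 := hlog (2 * n) (by omega)
    push_cast at h1 ⊢
    rw [Real.log_mul (by norm_num) hn0.ne'] at h1
    have := Real.log_two_lt_d9
    linarith
  generalize Nat.log 2 (2 * n) + 1 = u at hu hu2 ⊢
  have hu0 : (0 : ℝ) < u := by exact_mod_cast (by omega : 0 < u)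
  have hT : (Nat.log 2 (16 * u) : ℝ) ≤ 162 * Real.log (Real.log n) := by
    have h1 := hlog (16 * u) (by omega)
    have h2 : Real.log ((16 * u : ℕ) : ℝ) ≤ Real.log (80 * Real.log n) :=
      Real.log_le_log (by positivity) (by push_cast; linarith)
    rw [Real.log_mul (by norm_num) (by linarith)] at h2
    have h3 := Real.log_le_sub_one_of_pos (show (0 : ℝ) < 80 by norm_num)
    linarith
  have hK : ((2 * u + 1 : ℕ) : ℝ) ^ FourierCircuit.savingExponent ≤
      11 * Real.log n ^ FourierCircuit.savingExponent := by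
    calc _ ≤ (11 * Real.log n) ^ FourierCircuit.savingExponent :=
          Real.rpow_le_rpow (by positivity) (by push_cast; linarith) hθ
      _ = 11 ^ FourierCircuit.savingExponent * Real.log n ^ FourierCircuit.savingExponent :=
          Real.mul_rpow (by norm_num) (by linarith)
      _ ≤ _ := by
          refine mul_le_mul_of_nonneg_right ?_ (by positivity)
          simpa using Real.rpow_le_rpow_of_exponent_le (show (1 : ℝ) ≤ 11 by norm_num) hθ1
  have ha : 1 ≤ Real.log n ^ FourierCircuit.savingExponent := Real.one_le_rpow (by linarith) hθ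
  have hb : Real.log (Real.log n) ≤ Real.log (Real.log n) ^ (4 - FourierCircuit.savingExponent) := by
    simpa using Real.rpow_le_rpow_of_exponent_le hll
      (show 1 ≤ 4 - FourierCircuit.savingExponent by linarith)
  generalize Real.log (Real.log n) ^ (4 - FourierCircuit.savingExponent) = b at hb ⊢
  generalize Real.log n ^ FourierCircuit.savingExponent = a at ha hK ⊢
  generalize ((2 * u + 1 : ℕ) : ℝ) ^ FourierCircuit.savingExponent = K at hK ⊢
  have hb1 : 1 ≤ b := le_trans hll hb
  have hL : ((288 * Nat.log 2 (16 * u) + 72 : ℕ) : ℝ) ≤ 47000 * b := by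
    push_cast; linarith
  have hab : 1 ≤ a * b := one_le_mul_of_one_le_of_one_le ha hb1
  have h1 : 3 * (A * K) + 5 ≤ (33 * A + 5) * a := by nlinarith [mul_le_mul_of_nonneg_left hK hA0]
  have h2 : ((288 * Nat.log 2 (16 * u) + 72 : ℕ) : ℝ) * (3 * (A * K) + 5) + 1 ≤
      (47000 * (33 * A + 5) + 1) * (a * b) := by
    have := mul_le_mul_of_nonneg_left h1
      (Nat.cast_nonneg (α := ℝ) (288 * Nat.log 2 (16 * u) + 72))
    have h3 := mul_le_mul_of_nonneg_right hL (show 0 ≤ (33 * A + 5) * a by positivity)
    nlinarith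
  have h3 := mul_le_mul_of_nonneg_left h2
    (show (0 : ℝ) ≤ 16 * (1 + 6 * R324.Wb) * n by positivity)
  have h4 := mul_le_mul_of_nonneg_left hab (show (0 : ℝ) ≤ 10 * n by positivity)
  nlinarith

end Crest.Agent.S0501
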