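import Crest.Statements.S0504
import Crest.Agent.R327.Circuit

set_option autoImplicit false
universe u v
open Crest Crest.LogicCS

namespace Crest.Agent.S0504

/-- There is an absolute threshold n₀ such that, for every n ≥ n₀, every field K of characteristic zero, and every syntactically homogeneous depth-five sum-product circuit over K in the n³ matrix-entry variables (gates may be shared; fan-in is unrestricted; a bottom sum may read any number of leaves) whose output is the top-left entry of the ordered product of the n variable matrices of order n, the number of vertices of the circuit, leaves included, is at least n^(√n/400). -/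
theorem result :
    ∃ n₀ : ℕ, ∀ n ≥ n₀, ∀ (K : Type u) [Field K] [CharZero K]
      (L B P S R : Type v) [Fintype L] [Fintype B] [Fintype P] [Fintype S] [Fintype R]
      (C : Crest.ArithCircuit.SPSPS K (Fin n × Fin n × Fin n) L B P S R),
      C.IsHomogeneous → C.output = Crest.ArithCircuit.imm K n →
        (n : ℝ) ^ (Real.sqrt n / 400) ≤ (C.size : ℝ) := by
  refine ⟨⌈Real.exp 192⌉₊ + 1, fun n hn K _ _ L B P S R _ _ _ _ _ C hC hout => ?_⟩
  obtain ⟨k, rfl⟩ : ∃ k, n = k + 1 := ⟨n - 1, by omega⟩
  have hpos : (0 : ℝ) < ((k + 1 : ℕ) : ℝ) := by positivity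
  have hL : 192 ≤ Real.log ((k + 1 : ℕ) : ℝ) := by
    rw [Real.le_log_iff_exp_le hpos]
    refine le_trans (Nat.le_ceil _) ?_
    exact_mod_cast (by omega : ⌈Real.exp 192⌉₊ ≤ k + 1)
  have h := Crest.Agent.R327.size_lower k K C hC hout hL (Real.exp_log hpos).symm
  rw [Real.rpow_def_of_pos hpos, Real.sqrt_eq_rpow, Real.rpow_def_of_pos hpos, mul_one_div]
  exact h

end Crest.Agent.S0504
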