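import Crest.Statements.S0505
import Crest.Agent.R327.Upper

set_option autoImplicit false
universe u
open Crest Crest.LogicCS

namespace Crest.Agent.S0505

/-- For every field K and every n ≥ 2 there is a syntactically homogeneous depth-five sum-product circuit over K in the n³ matrix-entry variables (shared gates, unrestricted fan-in and bottom support) whose output is the top-left entry of the ordered product of the n variable matrices of order n and whose number of vertices, leaves included, is at most 2n³ + r·n² + r·n^(t+1) + n^(r−1) + 1 with t = ⌈√n⌉, r = ⌈n/t⌉, and also at most n^(√n + 4). Layers are indexed by initial segments of ℕ. -/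
theorem result (K : Type u) [Field K] (n : ℕ)
    (hn : 2 ≤ n) :
    ∃ (l b p s r : ℕ)
      (C : Crest.ArithCircuit.SPSPS K (Fin n × Fin n × Fin n) (Fin l) (Fin b) (Fin p) (Fin s) (Fin r)),
      C.IsHomogeneous ∧ C.output = Crest.ArithCircuit.imm K n ∧
        C.size ≤ 2 * n ^ 3 + ⌈(n : ℝ) / ⌈Real.sqrt n⌉₊⌉₊ * n ^ 2 +
          ⌈(n : ℝ) / ⌈Real.sqrt n⌉₊⌉₊ * n ^ (⌈Real.sqrt n⌉₊ + 1) +
          n ^ (⌈(n : ℝ) / ⌈Real.sqrt n⌉₊⌉₊ - 1) + 1 ∧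
        (C.size : ℝ) ≤ (n : ℝ) ^ (Real.sqrt n + 4) := by
  obtain ⟨k, rfl⟩ : ∃ k, n = k + 1 := ⟨n - 1, by omega⟩
  have hn' : (2 : ℝ) ≤ ((k + 1 : ℕ) : ℝ) := by exact_mod_cast hn
  have hs : 1 < Real.sqrt ((k + 1 : ℕ) : ℝ) := by
    rw [Real.lt_sqrt (by norm_num)]; linarith
  have ht2 : 1 < ⌈Real.sqrt ((k + 1 : ℕ) : ℝ)⌉₊ := by
    rw [Nat.lt_ceil]; exact_mod_cast hs
  have ht3 := Nat.le_ceil (Real.sqrt ((k + 1 : ℕ) : ℝ))
  have ht4 := Nat.ceil_lt_add_one (Real.sqrt_nonneg ((k + 1 : ℕ) : ℝ))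
  obtain ⟨t, ht⟩ : ∃ t, ⌈Real.sqrt ((k + 1 : ℕ) : ℝ)⌉₊ = t + 1 := ⟨_, (Nat.sub_add_cancel ht2.le).symm⟩
  rw [ht] at ht2 ht3 ht4 ⊢
  have ht1 : 1 ≤ t := by omega
  have ht1' : (2 : ℝ) ≤ ((t + 1 : ℕ) : ℝ) := by exact_mod_cast ht2
  have hsq : ((k + 1 : ℕ) : ℝ) ≤ ((t + 1 : ℕ) : ℝ) ^ 2 := by
    rwa [Real.sqrt_le_left (by positivity)] at ht3
  have hr0 : 0 < ⌈((k + 1 : ℕ) : ℝ) / ((t + 1 : ℕ) : ℝ)⌉₊ := by
    rw [Nat.ceil_pos]; positivity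
  have hr1 := Nat.le_ceil (((k + 1 : ℕ) : ℝ) / ((t + 1 : ℕ) : ℝ))
  have hr2 : ⌈((k + 1 : ℕ) : ℝ) / ((t + 1 : ℕ) : ℝ)⌉₊ ≤ t + 1 := by
    rw [Nat.ceil_le, div_le_iff₀ (by positivity)]
    nlinarith
  have hr3 : ⌈((k + 1 : ℕ) : ℝ) / ((t + 1 : ℕ) : ℝ)⌉₊ ≤ k := by
    rw [Nat.ceil_le, div_le_iff₀ (by positivity)]
    push_cast at hn' ht1' ⊢
    nlinarith
  obtain ⟨r, hr⟩ : ∃ r, ⌈((k + 1 : ℕ) : ℝ) / ((t + 1 : ℕ) : ℝ)⌉₊ = r + 1 :=
    ⟨_, (Nat.sub_add_cancel hr0).symm⟩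
  rw [hr] at hr1 hr2 hr3 ⊢
  have hcov : k + 1 ≤ (r + 1) * (t + 1) := by
    rw [div_le_iff₀ (by positivity)] at hr1
    exact_mod_cast hr1
  obtain ⟨l, b, p, s, r', C, h1, h2, h3⟩ :=
    Crest.Agent.R327.exists_fin _ (Crest.Agent.R327.circ_homog K k t r)
  rw [Crest.Agent.R327.circ_output K k t r hcov] at h2
  rw [Crest.Agent.R327.circ_size] at h3
  refine ⟨l, b, p, s, r', C, h1, h2, by rw [h3, Nat.add_sub_cancel], ?_⟩
  have h4 := Crest.Agent.R327.size_num (n := k + 1) (t := t) (r := r) hn ht1 (by omega) (by omega)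
  rw [← h3] at h4
  calc (C.size : ℝ) ≤ ((k + 1 : ℕ) : ℝ) ^ (t + 4) := by exact_mod_cast h4
    _ = ((k + 1 : ℕ) : ℝ) ^ ((t + 4 : ℕ) : ℝ) := (Real.rpow_natCast _ _).symm
    _ ≤ _ := by
      apply Real.rpow_le_rpow_of_exponent_le (by linarith)
      push_cast at ht4 ⊢
      linarith

end Crest.Agent.S0505
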