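import Crest.Statements.S0554
import Crest.Agent.R350.Main

set_option autoImplicit false
open Crest.MathPhysics.Query
open Crest Crest.MathPhysics

namespace Crest.Agent.S0554

/-- For every `k ≥ 2` there are constants `c, C, b > 0` such that for every large enough power of four `m` some total Boolean function on finitely many bits has a quantum query algorithm with at most `C √m (log m)^b` queries and error at most `1/3` on every input, while every randomized algorithm with error at most `1/3` on every input reads at least `c m^{2 - 1/k} / (log m)^2` bits on some input. So no power below four bounds randomized by quantum query complexity. -/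
theorem result (k : ℕ) (hk : 2 ≤ k) :
    ∃ (c C b : ℝ), 0 < c ∧ 0 < C ∧ 0 < b ∧ ∃ m₀ : ℕ, ∀ m : ℕ, m₀ ≤ m → (∃ j : ℕ, m = 4 ^ j) →
      ∃ (n : ℕ) (F : (Fin n → Bool) → Bool),
        (∃ q : ℕ, (q : ℝ) ≤ C * Real.sqrt m * Real.log m ^ b ∧ QuantumComputes F q) ∧
        (∀ r : ℕ, RandomizedComputes F r →
          c * (m : ℝ) ^ (2 - 1 / (k : ℝ)) / Real.log m ^ 2 ≤ r) := by
  obtain ⟨c, hc, C, j0, H⟩ := Crest.Agent.R350.core (13 * k)
  obtain ⟨E, hE⟩ : ∃ E, E = 26 * k + 16 := ⟨_, rfl⟩
  refine ⟨c / (3 ^ E) ^ 2, C + 1, 1, by positivity, by positivity, one_pos,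
    (3 ^ E) ^ j0 + 3, fun m hm _ => ?_⟩
  have hG : 1 < 3 ^ E := Nat.one_lt_pow (by omega) (by norm_num)
  have hm3 : 3 ≤ m := le_trans (Nat.le_add_left _ _) hm
  have h1 := Nat.pow_log_le_self (3 ^ E) (x := m) (by omega)
  have h2 := Nat.lt_pow_succ_log_self hG m
  have h3 : j0 ≤ Nat.log (3 ^ E) m := Nat.le_log_of_pow_le hG (by omega)
  generalize Nat.log (3 ^ E) m = j at *
  obtain ⟨n, F, ⟨q, hq, hQ⟩, hR⟩ := H j h3
  have hm' : (3 : ℝ) ≤ m := by exact_mod_cast hm3
  have hl : 1 ≤ Real.log m := by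
    rw [Real.le_log_iff_exp_le (by linarith)]
    linarith [Real.exp_one_lt_d9]
  refine ⟨n, F, ⟨q, ?_, hQ⟩, fun r hr => le_trans ?_ (hR r hr)⟩
  · have h4 : ((3 : ℝ) ^ j) ^ (13 * k + 8) ≤ Real.sqrt m := by
      refine Real.le_sqrt_of_sq_le ?_
      rw [← pow_mul, show (13 * k + 8) * 2 = E by omega, ← pow_mul, mul_comm, pow_mul]
      exact_mod_cast h1
    have h5 : (q : ℝ) ≤ C * ((3 : ℝ) ^ j) ^ (13 * k + 8) := by exact_mod_cast hq
    rw [Real.rpow_one]
    calc (q : ℝ) ≤ (C + 1) * Real.sqrt m * 1 := by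
          rw [mul_one]; exact h5.trans (by gcongr; linarith)
      _ ≤ _ := by gcongr
  · have hk' : (2 : ℝ) ≤ k := by exact_mod_cast hk
    have hk1 : 0 ≤ 1 / (k : ℝ) := by positivity
    have hk2 : 1 / (k : ℝ) ≤ 1 := by rw [div_le_one (by positivity)]; linarith
    have h4 : (m : ℝ) ≤ 3 ^ E * ((3 : ℝ) ^ j) ^ E := by
      rw [← pow_mul, mul_comm j, pow_mul, ← pow_succ']
      exact_mod_cast h2.le
    have hs : (1 : ℝ) ≤ 3 ^ j := one_le_pow₀ (by norm_num)
    have hG' : (1 : ℝ) ≤ 3 ^ E := one_le_pow₀ (by norm_num)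
    generalize (3 : ℝ) ^ j = s at *
    generalize (3 : ℝ) ^ E = G at *
    have h5 : (m : ℝ) ^ (2 - 1 / (k : ℝ)) ≤ G ^ 2 * s ^ (4 * (13 * k) + 6) := by
      refine (Real.rpow_le_rpow (by positivity) h4 (by linarith)).trans ?_
      rw [Real.mul_rpow (by positivity) (by positivity), ← Real.rpow_natCast s,
        ← Real.rpow_mul (by positivity), ← Real.rpow_natCast s, ← Real.rpow_natCast G]
      refine mul_le_mul (Real.rpow_le_rpow_of_exponent_le hG' (by push_cast; linarith))
        (Real.rpow_le_rpow_of_exponent_le hs ?_) (by positivity) (by positivity)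
      have : (k : ℝ) * (1 / k) = 1 := by field_simp
      rw [hE]
      push_cast
      nlinarith
    calc _ ≤ c / G ^ 2 * (G ^ 2 * s ^ (4 * (13 * k) + 6)) / 1 := by
          gcongr
          nlinarith
      _ = _ := by field_simp

end Crest.Agent.S0554
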